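import Vale.Agent.P352G87.Top1
import Vale.Agent.P352G75.Defs

/-!
# P352G26: the stress tensor of a graded extension
-/

set_option linter.all false

open Filter Topology
open scoped ComplexConjugate

namespace Vale.Agent.P352X.EG.NG

open Vale.Agent.P352 Vale.Agent.P352.GF Vale.Agent.P352.BW Vale.Agent.P352.H246
open Vale.Agent.P352.H496 Vale.Agent.P352.H755 Vale.Agent.P352.H15
open Vale.Agent.P352.SubConf (IsAdj)
open Vale.Agent.P352NA (Cyc)
open Vale.Agent.P352X.EB
open Vale.Agent.P352X.EB.NA (cs cs_dense ext_C cyc_vac cyc_fld)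
open Vale.Agent.P352G (ExtF ext_aff cva_dil cva_lor linv_one)
open UniformSpace (Completion)
open Complex (I)

noncomputable section

variable {D : Type*} [NormedAddCommGroup D] [InnerProductSpace ℂ D] {c : Cg D}
  {D' : Submodule ℂ (Completion D)} {Q' : Theory D'} {G' : D' → D'} {e : Fld D → Fld D'} {f : Fn}
  {w : D}

theorem cyc_tr (a : V) (h : Cyc c.Q w) : Cyc c.Q (c.Q.U 1 GF.one a w) := by
  refine h ((cs c.Q).comap (NA.ul c.Q ⟨1, GF.one, a, one_pos, H496.isLor_one⟩)) ?_
    fun A f v hA hf hv => ?_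
  · show Cyc c.Q (c.Q.U _ _ _ _)
    rw [c.Q.U_vac _ _ _ one_pos H496.isLor_one]
    exact cyc_vac
  have hg := Ap.test_sim one_pos H496.isLor_one (-a) hf
  have := c.Q.transl A a _ v hA hg
  simp only [sim_ut, add_neg_cancel_right] at this
  show Cyc c.Q (c.Q.U 1 GF.one a (A f v))
  rw [← this]
  exact cyc_fld hA (by simpa only [sim_ut] using hg) hv

theorem cyc_all (hM : MfAll c.Q) (hF : FSL c.Q) {s : ℝ} {L : Ix → V} (hs : 0 < s) (hL : IsLor L)
    (a : V) (h : Cyc c.Q w) : Cyc c.Q (c.Q.U s L a w) := by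
  have h1 := P352G.cyc_U one_pos hL (inv_one (G := ℝ).symm ▸ cva_lor hM (isLor_linv hL)) h
  have h2 := P352G.cyc_U hs H496.isLor_one (linv_one.symm ▸ cva_dil hF (inv_pos.2 hs)) h1
  have h3 := cyc_tr a h2
  rw [(c.hN.mul s _ 0 1 L 0 hs one_pos H496.isLor_one hL).resolve_right fun k => k.1 rfl] at h3
  simp only [H26.sim_one0, mul_one, Grp.sim_zero] at h3
  rw [(c.hN.mul 1 _ a s L 0 one_pos hs H496.isLor_one hL).resolve_right fun k => k.1 rfl] at h3
  simpa only [one_mul, sim_ut, zero_add, add_zero] using h3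

/-- covariance relations pass to the extension -/
theorem ext_cov' (t : E0 c) (E : ExtF c.Q c.Γ Q' G' e) (hM : MfAll c.Q) (hF : FSL c.Q) {s : ℝ}
    {L : Ix → V} (hs : 0 < s) (hL : IsLor L) (a : V) {ι : Type} [Fintype ι] {B B' : Fld D}
    {C C' : ι → Fld D} {κ : ι → ℂ} (hB : c.Q.fld B) (b : c.Q.fld B') (hB' : IsAdj B B')
    (hC : ∀ i, c.Q.fld (C i)) (b' : ∀ i, c.Q.fld (C' i)) (hC' : ∀ i, IsAdj (C i) (C' i))
    (h : ∀ f v, IsTest f → B' f (c.Q.U s L a v) =
      ∑ i, conj (κ i) • c.Q.U s L a (C' i (fun x => f (sim s L a x)) v)) (hf : IsTest f)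
    (v : D') : e B f (Q'.U s L a v) =
      ∑ i, κ i • Q'.U s L a (e (C i) (fun x => f (sim s L a x)) v) := by
  have hg := Ap.test_sim hs hL a hf
  have h0 := fun w => h _ w (Ap.test_bar hf)
  have hU := t.sg.uni ⟨⟨s, L, a, hs, hL⟩, false⟩
  let W := Ug c.Q s L a
  have hW : ∀ x y, inner ℂ (W x) (W y) = inner ℂ x y :=
    ContinuousLinearMap.inner_map_map_of_mem_unitary hU
  refine EB.STRa.ext_dense (u := fun w : cs c.Q => W (w : D))
    ((Function.Surjective.denseRange fun z => ⟨star W z, DFunLike.congr_fun hU.2 z⟩).comp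
      (cs_dense c.Q) W.continuous) fun w => ?_
  have h2 : ∀ z : D', (Q'.U s L a z : Completion D) = W z := fun z =>
    (E.U s L a z hs hL).trans (Ug_apply _ hs hL a _).symm
  have h3 : ∀ z : D, ((c.Q.U s L a z : D) : Completion D) = W z := fun z =>
    (t.sg.coe s L a z hs hL).symm
  conv_lhs => rw [← h3, ext_aff E hB b hB' hf _ (cyc_all hM hF hs hL a w.2), h0, h2]
  simp only [STRa.coe_sum, Completion.coe_smul, Submodule.coe_sum, Submodule.coe_smul, inner_sum,
    sum_inner, inner_smul_left, inner_smul_right, h2, h3, hW,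
    fun i => ext_aff E (hC i) (b' i) (hC' i) hg v w.2]
  rfl

/-- the stress tensor of an extension -/
theorem str0 [Nd c] [NI c] (t : E0 c) (hM : MfAll c.Q) (hF : FSL c.Q)
    (E : ExtF c.Q c.Γ Q' G' e) (hA : ∀ A, Q'.fld A →
    ∃ (n : ℕ) (B : Fin n → Fld D), (∀ i, c.Q.fld (B i)) ∧
      ∀ f v, IsTest f → A f v = ∑ i, e (B i) f v) : Q'.IsStress fun m n => e (c.T m n) := by
  have hT := c.hT
  have hf : ∀ m n, c.Q.fld (c.T m n) := fun m n => c.Q.bose_fld _ (hT.bose m n)
  have ha := fun m n f (h : IsTest f) (v : D') (w : D) (hw : Cyc c.Q w) =>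
    ext_aff E (hf m n) (hf m n) (hT.herm m n) h v hw
  refine ⟨fun m n => E.bos _ (hT.bose m n), fun m n f v h => ext_C c.Q fun w hw => ?_,
    fun m n => E.adj _ _ (hf m n) (hf m n) (hT.herm m n), fun m n s L a f v hs hL h => ?_,
    fun n f v h => ext_C c.Q fun w hw => ?_, fun F n B f v w hG hB h hs => ?_⟩
  · rw [ha _ _ _ h _ _ hw, ha _ _ _ h _ _ hw, hT.symm m n _ _ (Ap.test_bar h)]
  · exact (ext_cov' t E hM hF hs hL a (C := fun p : Ix × Ix => c.T p.1 p.2)
      (C' := fun p : Ix × Ix => c.T p.1 p.2) (κ := fun p => (L p.1 m * L p.2 n : ℂ)) (hf m n)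
      (hf m n) (hT.herm m n) (fun _ => hf _ _) (fun _ => hf _ _) (fun _ => hT.herm _ _)
      (fun g w hg => by
        simp only [map_mul, Complex.conj_ofReal]
        exact (hT.cov m n s L a g w hs hL hg).trans (Fintype.sum_prod_type' _).symm) h v).trans
      (Fintype.sum_prod_type _)
  · rw [Submodule.coe_sum, sum_inner]
    simp only [ha _ _ _ (Ap.test_pd _ h) _ _ hw, H755.bar_pd h]
    rw [← inner_sum, ← STRa.coe_sum, hT.conserved n _ w (Ap.test_bar h), Completion.coe_zero,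
      inner_zero_right, Submodule.coe_zero, inner_zero_left]
  · obtain ⟨k, C, hC, h1⟩ := hA B hB
    choose C' hC' adj using fun i => c.Q.adj (C i) (hC i)
    have hb : HasCompactSupport (bar f) := hs.comp_left (g := star) (star_zero _)
    refine tendsto_const_nhds.congr' ?_
    filter_upwards [STRa.exact_charge hT hG (Ap.test_bar h) hb, eventually_gt_atTop 0] with R hR R0
    obtain ⟨a, b, -, -, -, -, h2⟩ := hG
    obtain ⟨h3, h4⟩ := h2 R R0
    have h5 : bar (F R) = F R := funext fun x => by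
      change conj (F R x) = F R x
      rw [h4, map_mul, Complex.conj_ofReal, Complex.conj_ofReal]
    congr 1
    refine ext_C c.Q fun z hz => ?_
    have h6 := fun i g (hg : IsTest g) (u : D') (y : D) (hy : Cyc c.Q y) =>
      ext_aff E (hC i) (hC' i) (adj i) hg u hy
    rw [Submodule.coe_sub, inner_sub_left, ha _ _ _ h3 _ _ hz, h1 _ _ h, h1 _ _ h,
      h1 _ _ (Ap.test_pd n h), h5]
    simp only [Submodule.coe_sum, Submodule.coe_smul, sum_inner, inner_smul_left, h6 _ _ h _ _ hz,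
      h6 _ _ h _ _ (cyc_fld (hf _ _) h3 hz), h6 _ _ (Ap.test_pd n h) _ _ hz,
      ha _ _ _ h3 _ _ (cyc_fld (hC' _) (Ap.test_bar h) hz), h5, H755.bar_pd h]
    rw [← Finset.sum_sub_distrib, Finset.mul_sum]
    refine Finset.sum_congr rfl fun i _ => ?_
    rw [← inner_sub_right, ← Completion.coe_sub, ← neg_sub, hR _ (hC' i), Completion.coe_neg,
      Completion.coe_smul, inner_neg_right, inner_smul_right]
    simp

end

end Vale.Agent.P352X.EG.NG
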